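import Vale.Agent.P224.PO.IdX
import Vale.Agent.P224.PO.R13s.Rows
import Vale.Agent.P224.PO.R13s.El
import Vale.Agent.P224.PO.R13s.DF0
import Vale.Agent.P224.PO.R13s.DF1

/-!
The identity of the certificate in dimension 13 and the positivity of its left side.
-/

namespace Vale.Agent.P224.PO.R13s

open Vale.Agent.P224.UE Vale.Agent.P224.POS Vale.Agent.P224.PO
open scoped RealInnerProductSpace

noncomputable section

/-- the blocks with the multiplier number 0 -/
def B1 : List BlkX := [⟨els0, 2361183241434822606848, N0⟩,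
  ⟨els1, 147573952589676412928, N1⟩]

/-- the blocks with the multiplier number 1 -/
def Br : List BlkX := [⟨els2, 2361183241434822606848, N2⟩,
  ⟨els3, 2361183241434822606848, N3⟩]

/-- the blocks with the multiplier number 2 -/
def S1 : List BlkX := [⟨els4, 140737488355328, N4⟩,
  ⟨els5, 4503599627370496, N5⟩]

/-- the blocks with the multiplier number 3 -/
def Sr : List BlkX := [⟨els6, 2251799813685248, N6⟩,
  ⟨els7, 288230376151711744, N7⟩]

/-- the integers replacing the first four variables (not powers of two: the kernel hashes a numeral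
by its last 64 bits) -/
def Ms : List Nat := [
  Nat.add (Nat.pow 2 99) 1090297408444377839,
  Nat.add (Nat.pow 2 2031) 672893673074899541,
  Nat.add (Nat.pow 2 14794) 494586791774247929,
  Nat.add (Nat.pow 2 104135) 946030352018653745]

set_option maxRecDepth 100000 in
/-- **The identity**, checked by the kernel. -/
theorem idM : chkX Ms (PE.sb sbH P) 8 tabH (mulX B1 Br S1 Sr) = true := by
  decide +kernel

lemma hB1 : GoodX B1 :=
  (goodX_cons psd0 (goodX_cons psd1 goodX_nil))

lemma hBr : GoodX Br :=
  (goodX_cons psd2 (goodX_cons psd3 goodX_nil))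

lemma hS1 : GoodX S1 :=
  (goodX_cons psd4 (goodX_cons psd5 goodX_nil))

lemma hSr : GoodX Sr :=
  (goodX_cons psd6 (goodX_cons psd7 goodX_nil))

/-- **Positivity** of the left side on pair data with a vector of length at most `5 / 6`. -/
theorem pos {E : Type*} [NormedAddCommGroup E] [InnerProductSpace ℝ E] {e x N y w : E}
    (he : ‖e‖ ^ 2 ≤ 25 / 36) (hx : ‖x‖ = 1) (hN : ‖N‖ = 1) (hy : ‖y‖ = 1) (hw : ‖w‖ = 1)
    (hxN : ⟪x, N⟫ = 0) (hyw : ⟪y, w⟫ = 0) (hs : ⟪x, y⟫ < 1) :
    0 ≤ PE.ev (vh (dv x N y w e)) P :=
  nonneg_of_chkX 8 (by norm_num) idM rfl hB1 hBr hS1 hSr he hx hN hy hw hxN hyw hs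

/-- **The pointwise inequality of the certificate.** -/
theorem hpos {E : Type*} [NormedAddCommGroup E] [InnerProductSpace ℝ E] (e x N y w : E)
    (he : ‖e‖ ^ 2 ≤ 25 / 36) (hx : ‖x‖ = 1) (hN : ‖N‖ = 1) (hy : ‖y‖ = 1) (hw : ‖w‖ = 1)
    (hxN : ⟪x, N⟫ = 0) (hyw : ⟪y, w⟫ = 0) (hs : ⟪x, y⟫ < 1) :
    0 ≤ Vale.Agent.P224.UE.W9 (24120239279947917120 / 17998917385762897920) (9156647522372434560 / 17998917385762897920) (-49975094949502121280 / 17998917385762897920) (29021934510566363520 / 17998917385762897920) (-10814755918752918720 / 17998917385762897920) (3984948763890373440 / 17998917385762897920) (0 / 17998917385762897920) (6145868557234103040 / 17998917385762897920) (0 / 17998917385762897920)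
        (dv x N y w e)
      + hsum 13 (rlH 17998917385762897920 rows) (dv x N y w e) + XF (-92740456314046195200 / 17998917385762897920) (956087178495321600 / 17998917385762897920) (-2360949971386406400 / 17998917385762897920) (dv x N y w e)
      + (0 / 17998917385762897920) * (dv x N y w e) 0 ^ 3 + XS (0 / 17998917385762897920) (0 / 17998917385762897920) (0 / 17998917385762897920) (-140036146067482560 / 17998917385762897920) (dv x N y w e) :=
  pos_of hs (pos he hx hN hy hw hxN hyw hs)

end

end Vale.Agent.P224.PO.R13s
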